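import Vale.Agent.P261.H468.DerDef
import Mathlib.NumberTheory.Padics.RingHoms
import Mathlib.Analysis.SpecificLimits.Normed

/-!
# P261, leaf P1: derived `p`-complete abelian groups

`DerComplete.eq_zero`: a derived `p`-complete group which is `p`-divisible is zero.
`DerComplete.exists_module`: a derived `p`-complete group `A` with finite `A / p` is a
finitely generated module over `ℤ_[p]`.
-/

namespace Vale.Agent.P261

theorem DerComplete.eq_zero {p : ℕ} {A : Type*} [AddCommGroup A] (h : DerComplete p A)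
    (hd : ∀ a : A, ∃ b : A, a = p • b) (a : A) : a = 0 := by
  choose f hf using hd
  have h1 : (fun i => f^[i] a) = fun _ : ℕ => (0 : A) := by
    refine (h (fun _ => 0)).unique ?_ ?_
    · intro i
      show f^[i] a - p • f^[i + 1] a = 0
      rw [Function.iterate_succ_apply', ← hf (f^[i] a), sub_self]
    · intro i
      simp
  have := congrFun h1 0
  simpa using this

namespace H660

variable {p : ℕ} [hp : Fact p.Prime] {A : Type*} [AddCommGroup A]

/-- Digit and tail of a `p`-adic integer. -/
theorem exists_tail : ∃ (dg : ℤ_[p] → ℤ) (tl : ℤ_[p] → ℤ_[p]),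
    ∀ z, z = dg z + (p : ℤ_[p]) * tl z := by
  have h : ∀ z : ℤ_[p], ∃ (d : ℤ) (t : ℤ_[p]), z = d + (p : ℤ_[p]) * t := by
    intro z
    have h1 := PadicInt.norm_sub_zmodRepr_lt_one z
    rw [PadicInt.norm_lt_one_iff_dvd] at h1
    obtain ⟨t, ht⟩ := h1
    refine ⟨(z.zmodRepr : ℤ), t, ?_⟩
    rw [← ht]
    push_cast
    ring
  choose d t ht using h
  exact ⟨d, t, ht⟩

/-- The solution operator at `0`: integer sequences with a `p`-adic integer tail. -/
theorem sol_int (h : DerComplete p A) (a : A) (t : ℕ → ℤ_[p]) (c : ℕ → ℤ) (m₀ : ℤ)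
    (h0 : t 0 = m₀) (ht : ∀ i, t i = c i + (p : ℤ_[p]) * t (i + 1))
    (x : ℕ → A) (hx : ∀ i, x i - p • x (i + 1) = c i • a) : x 0 = m₀ • a := by
  -- all tails are integers
  have hint : ∀ i, ∃ m : ℤ, t i = m := by
    intro i
    induction i with
    | zero => exact ⟨m₀, h0⟩
    | succ i ih =>
      obtain ⟨m, hm⟩ := ih
      have h1 : (p : ℤ_[p]) * t (i + 1) = ((m - c i : ℤ) : ℤ_[p]) := by
        have := ht i
        push_cast
        rw [← hm, this]
        ring
      have h2 : (p : ℤ_[p]) ^ 1 ∣ ((m - c i : ℤ) : ℤ_[p]) := by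
        rw [pow_one]
        exact ⟨_, h1.symm⟩
      rw [PadicInt.pow_p_dvd_int_iff] at h2
      obtain ⟨k, hk⟩ := h2
      refine ⟨k, ?_⟩
      rw [hk] at h1
      push_cast at h1
      rw [pow_one] at h1
      have hp0 : (p : ℤ_[p]) ≠ 0 := by
        exact_mod_cast hp.out.ne_zero
      exact mul_left_cancel₀ hp0 h1
  choose m hm using hint
  have hm0 : m 0 = m₀ := by
    have : ((m 0 : ℤ) : ℤ_[p]) = (m₀ : ℤ_[p]) := by rw [← hm 0, h0]
    exact_mod_cast this
  have hrec : ∀ i, m i = c i + p * m (i + 1) := by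
    intro i
    have h1 := ht i
    rw [hm i, hm (i + 1)] at h1
    exact_mod_cast h1
  have h2 : x = fun i => m i • a := by
    refine (h (fun i => c i • a)).unique hx ?_
    intro i
    show m i • a - p • m (i + 1) • a = c i • a
    rw [hrec i, add_smul, mul_smul, natCast_zsmul]
    abel
  rw [h2]
  show m 0 • a = m₀ • a
  rw [hm0]

/-- For every `a` there is an additive map `ℤ_[p] → A` with value `a` at `1`. -/
theorem exists_hom (h : DerComplete p A) (a : A) : ∃ φ : ℤ_[p] →+ A, φ 1 = a := by
  obtain ⟨dg, tl, htl⟩ := exists_tail (p := p)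
  have hsol : ∀ z : ℤ_[p], ∃ x : ℕ → A, ∀ i, x i - p • x (i + 1) = dg (tl^[i] z) • a :=
    fun z => (h (fun i => dg (tl^[i] z) • a)).exists
  choose x hx using hsol
  have htail : ∀ (z : ℤ_[p]) (i : ℕ), tl^[i] z = dg (tl^[i] z) + (p : ℤ_[p]) * tl^[i + 1] z := by
    intro z i
    rw [Function.iterate_succ_apply']
    exact htl _
  refine ⟨AddMonoidHom.mk' (fun z => x z 0) ?_, ?_⟩
  · intro z w
    have h1 := sol_int h a
      (fun i => tl^[i] (z + w) - tl^[i] z - tl^[i] w)
      (fun i => dg (tl^[i] (z + w)) - dg (tl^[i] z) - dg (tl^[i] w)) 0 (by simp) (by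
        intro i
        have e1 := htail (z + w) i
        have e2 := htail z i
        have e3 := htail w i
        push_cast
        linear_combination e1 - e2 - e3) (fun i => x (z + w) i - x z i - x w i) (by
        intro i
        have e1 := hx (z + w) i
        have e2 := hx z i
        have e3 := hx w i
        show x (z + w) i - x z i - x w i - p • (x (z + w) (i + 1) - x z (i + 1) - x w (i + 1)) = _
        rw [sub_smul, sub_smul, ← e1, ← e2, ← e3, smul_sub, smul_sub]
        abel)
    have h2 : x (z + w) 0 - x z 0 - x w 0 = 0 := by simpa using h1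
    show x (z + w) 0 = x z 0 + x w 0
    rw [sub_sub, sub_eq_zero] at h2
    exact h2
  · show x 1 0 = a
    have h1 := sol_int h a (fun i => tl^[i] 1) (fun i => dg (tl^[i] 1)) 1 (by simp)
      (fun i => htail 1 i) (x 1) (hx 1)
    simpa using h1

/-- An additive map `ℤ_[p] → A` is determined by its value at `1`. -/
theorem hom_ext (h : DerComplete p A) (φ ψ : ℤ_[p] →+ A) (h1 : φ 1 = ψ 1) : φ = ψ := by
  obtain ⟨dg, tl, htl⟩ := exists_tail (p := p)
  have key : ∀ θ : ℤ_[p] →+ A, θ 1 = 0 → ∀ z, θ z = 0 := by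
    intro θ hθ z
    have h2 : (fun i => θ (tl^[i] z)) = fun _ : ℕ => (0 : A) := by
      refine (h (fun _ => 0)).unique ?_ ?_
      · intro i
        have e1 : θ (tl^[i] z) = p • θ (tl^[i + 1] z) := by
          rw [Function.iterate_succ_apply']
          conv_lhs => rw [htl (tl^[i] z)]
          rw [map_add]
          have e2 : ((dg (tl^[i] z) : ℤ) : ℤ_[p]) = dg (tl^[i] z) • (1 : ℤ_[p]) := by simp
          have e3 : (p : ℤ_[p]) * tl (tl^[i] z) = p • tl (tl^[i] z) := by simp
          rw [e2, e3, map_zsmul, map_nsmul, hθ, smul_zero, zero_add]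
        show θ (tl^[i] z) - p • θ (tl^[i + 1] z) = 0
        rw [← e1, sub_self]
      · intro i
        simp
    have := congrFun h2 0
    simpa using this
  ext z
  have := key (φ - ψ) (by simp [h1]) z
  simpa [sub_eq_zero] using this

/-- The chosen hom. -/
noncomputable def phi (h : DerComplete p A) (a : A) : ℤ_[p] →+ A := (exists_hom h a).choose

theorem phi_one (h : DerComplete p A) (a : A) : phi h a 1 = a := (exists_hom h a).choose_spec

/-- The module structure. -/
@[reducible] noncomputable def mod (h : DerComplete p A) : Module ℤ_[p] A where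
  smul z a := phi h a z
  one_smul a := phi_one h a
  mul_smul z w a := by
    show phi h a (z * w) = phi h (phi h a w) z
    have : (phi h a).comp (AddMonoidHom.mulRight w) = phi h (phi h a w) := by
      refine hom_ext h _ _ ?_
      rw [phi_one]
      simp
    rw [← this]
    simp
  smul_zero z := by
    show phi h 0 z = 0
    have : phi h (0 : A) = 0 := hom_ext h _ _ (by rw [phi_one]; simp)
    rw [this]
    simp
  smul_add z a b := by
    show phi h (a + b) z = phi h a z + phi h b z
    have : phi h (a + b) = phi h a + phi h b := by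
      refine hom_ext h _ _ ?_
      rw [AddMonoidHom.add_apply, phi_one, phi_one, phi_one]
    rw [this, AddMonoidHom.add_apply]
  add_smul z w a := map_add (phi h a) z w
  zero_smul a := map_zero (phi h a)

theorem exists_series (ε : ℕ → ℤ_[p]) : ∃ z : ℕ → ℤ_[p],
    ∀ i, z i = ε i + (p : ℤ_[p]) * z (i + 1) := by
  have hs : ∀ i, Summable (fun k => ε (i + k) * (p : ℤ_[p]) ^ k) := by
    intro i
    refine Summable.of_norm_bounded (g := fun k => ((p : ℝ)⁻¹) ^ k) ?_ ?_
    · refine summable_geometric_of_lt_one (by positivity) ?_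
      exact inv_lt_one_of_one_lt₀ (by exact_mod_cast hp.out.one_lt)
    · intro k
      rw [norm_mul, norm_pow, PadicInt.norm_p]
      calc ‖ε (i + k)‖ * ((p : ℝ)⁻¹) ^ k ≤ 1 * ((p : ℝ)⁻¹) ^ k := by
            gcongr
            exact PadicInt.norm_le_one _
        _ = _ := one_mul _
  refine ⟨fun i => ∑' k, ε (i + k) * (p : ℤ_[p]) ^ k, ?_⟩
  intro i
  show ∑' k, ε (i + k) * (p : ℤ_[p]) ^ k = ε i + (p : ℤ_[p]) * ∑' k, ε (i + 1 + k) * (p : ℤ_[p]) ^ k
  rw [(hs i).tsum_eq_zero_add]
  congr 1
  · simp
  · rw [← (hs (i + 1)).tsum_mul_left]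
    refine tsum_congr ?_
    intro k
    rw [pow_succ, show i + (k + 1) = i + 1 + k by ring]
    ring

end H660

open H660 in
theorem DerComplete.exists_module {p : ℕ} [Fact p.Prime] {A : Type*} [AddCommGroup A]
    (h : DerComplete p A) (S : Set A) (hS : S.Finite) (hd : ∀ a : A, ∃ s ∈ S, ∃ b : A, a = s + p • b) :
    ∃ _ : Module ℤ_[p] A, Module.Finite ℤ_[p] A := by
  classical
  let _ : Module ℤ_[p] A := mod h
  refine ⟨mod h, ⟨⟨hS.toFinset, ?_⟩⟩⟩
  rw [eq_top_iff]
  intro a _
  choose s hsS b hb using hd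
  have hz : ∀ v : A, ∃ z : ℕ → ℤ_[p], ∀ i,
      z i = (if s (b^[i] a) = v then 1 else 0) + (p : ℤ_[p]) * z (i + 1) := by
    intro v
    exact exists_series (fun i => if s (b^[i] a) = v then (1 : ℤ_[p]) else 0)
  choose z hz using hz
  have hy : (fun i => b^[i] a) = fun i => ∑ v ∈ hS.toFinset, z v i • v := by
    refine (h (fun i => s (b^[i] a))).unique ?_ ?_
    · intro i
      show b^[i] a - p • b^[i + 1] a = s (b^[i] a)
      rw [Function.iterate_succ_apply', sub_eq_iff_eq_add]
      exact hb (b^[i] a)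
    · intro i
      show ∑ v ∈ hS.toFinset, z v i • v - p • ∑ v ∈ hS.toFinset, z v (i + 1) • v = s (b^[i] a)
      rw [Finset.smul_sum, ← Finset.sum_sub_distrib]
      have : ∀ v ∈ hS.toFinset, z v i • v - p • z v (i + 1) • v =
          if s (b^[i] a) = v then v else 0 := by
        intro v _
        rw [hz v i, add_smul, mul_smul, Nat.cast_smul_eq_nsmul, add_sub_cancel_right]
        split_ifs <;> simp
      rw [Finset.sum_congr rfl this, Finset.sum_ite_eq]
      simp [hsS]
  have h0 : a = ∑ v ∈ hS.toFinset, z v 0 • v := congrFun hy 0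
  rw [h0]
  refine Submodule.sum_mem _ ?_
  intro v hv
  exact Submodule.smul_mem _ _ (Submodule.subset_span hv)

end Vale.Agent.P261
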